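import Vale.Agent.P372.Defs

/-! Protocols in which one party sends boundedly many bits outside a blockwise phase. -/

open Matrix
open scoped Kronecker ComplexOrder MatrixOrder

namespace Vale.Agent.P372

/-- `KeyFreeBits n R c ρ`: on any number `m` of blocks of `n` copies, every protocol of the following
kind has error at least `c`. A first two-way phase with transcript `t`, in which Alice's Kraus
operators `G t` are arbitrary and Bob's are products over the blocks; a second two-way phase of
arbitrary collective operations, in which Bob's messages `r` take at most `R` values and Alice's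
messages `s` are unrestricted; `M t (r, s)` and `N t (r, s)` are the effects of Alice and Bob for
this transcript and their keys. -/
def KeyFreeBits {d : ℕ} (n R : ℕ) (c : ℝ) (ρ : Matrix (Fin d × Fin d) (Fin d × Fin d) ℂ) :
    Prop :=
  ∀ (m e T S a b L : ℕ)
    (V : Matrix ((Fin m → Fin n → Fin d) × (Fin m → Fin n → Fin d)) (Fin e) ℂ)
    (G : Fin T → Matrix (Fin a) (Fin m → Fin n → Fin d) ℂ)
    (h : Fin T → Fin m → Matrix (Fin b) (Fin n → Fin d) ℂ)
    (M : Fin T → Fin R × Fin S → (Fin L → Bool) → Matrix (Fin a) (Fin a) ℂ)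
    (N : Fin T → Fin R × Fin S → (Fin L → Bool) → Matrix (Fin m → Fin b) (Fin m → Fin b) ℂ)
    (σ : Matrix ((Fin T × (Fin R × Fin S)) × Fin e) ((Fin T × (Fin R × Fin S)) × Fin e) ℂ),
    1 ≤ L →
    V * Vᴴ = piP (fun _ : Fin m => piP (fun _ : Fin n => ρ)) →
    ∑ t, ((G t)ᴴ * G t) ⊗ₖ ((piK (h t))ᴴ * piK (h t)) = 1 →
    (∀ t j x, (M t j x).PosSemidef) → (∀ t r, ∑ s, ∑ x, M t (r, s) x = 1) →
    (∀ t j x, (N t j x).PosSemidef) → (∀ t s, ∑ r, ∑ x, N t (r, s) x = 1) →
    (∀ t, ∑ j, ∑ x, ∑ y, M t j x ⊗ₖ N t j y = 1) →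
    σ.PosSemidef → σ.trace = 1 →
    c ≤ traceNorm (finalState V (fun t => G t ⊗ₖ piK (h t)) M N - idealState L σ)

end Vale.Agent.P372
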