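import Vale.Agent.P372.Bits.Ext

/-! A purifying party measures `k` simulated copies of the second party. -/

open Matrix
open scoped Kronecker ComplexOrder MatrixOrder

namespace Vale.Agent.P372.Bits

variable {A B W K : Type*} {k : ℕ}

/-- `N` in slot zero and `J` in the remaining slots. -/
def consK (N : Matrix B B ℂ) (J : Matrix (Fin k → B) (Fin k → B) ℂ) :
    Matrix (Fin (k + 1) → B) (Fin (k + 1) → B) ℂ :=
  Matrix.of fun f g => N (f 0) (g 0) * J (Fin.tail f) (Fin.tail g)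

lemma consK_eq (N : Matrix B B ℂ) (J : Matrix (Fin k → B) (Fin k → B) ℂ) :
    consK N J = (N ⊗ₖ J).submatrix (fun f => (f 0, Fin.tail f)) (fun f => (f 0, Fin.tail f)) := rfl

lemma consK_piK (N : Matrix B B ℂ) (F : Fin k → Matrix B B ℂ) :
    consK N (piK F) = piK (Fin.cons N F) := by
  ext f g
  simp [consK, piK, Fin.prod_univ_succ, Fin.tail]

lemma consK_psd [Fintype B] {N : Matrix B B ℂ} {J : Matrix (Fin k → B) (Fin k → B) ℂ}
    (hN : N.PosSemidef) (hJ : J.PosSemidef) : (consK N J).PosSemidef :=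
  consK_eq N J ▸ (hN.kronecker hJ).submatrix _

lemma consK_sub_left (N N' : Matrix B B ℂ) (J : Matrix (Fin k → B) (Fin k → B) ℂ) :
    consK (N - N') J = consK N J - consK N' J := by
  ext f g; simp [consK, sub_mul]

lemma consK_sub_right (N : Matrix B B ℂ) (J J' : Matrix (Fin k → B) (Fin k → B) ℂ) :
    consK N (J - J') = consK N J - consK N J' := by
  ext f g; simp [consK, mul_sub]

lemma consK_sum_right (N : Matrix B B ℂ) (s : Finset K)
    (J : K → Matrix (Fin k → B) (Fin k → B) ℂ) :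
    consK N (∑ j ∈ s, J j) = ∑ j ∈ s, consK N (J j) := by
  ext f g; simp [consK, Matrix.sum_apply, Finset.mul_sum]

lemma consK_one [DecidableEq B] : consK (k := k) (1 : Matrix B B ℂ) 1 = 1 := by
  rw [← piK_one (I := Fin k), consK_piK, ← piK_one (I := Fin (k + 1))]
  congr 1
  funext i
  refine Fin.cases ?_ ?_ i
  · simp
  · intro j; simp

lemma trace_cons [Fintype A] [Fintype B] (M : Matrix A A ℂ) (N : Matrix B B ℂ)
    (J : Matrix (Fin k → B) (Fin k → B) ℂ)
    (X : Matrix (A × (Fin (k + 1) → B)) (A × (Fin (k + 1) → B)) ℂ) :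
    ((M ⊗ₖ consK N J) * X).trace = ∑ a, ∑ b, ∑ a', ∑ b', M a a' * N b b' *
      ∑ c, ∑ c', J c c' * X (a', Fin.cons b' c') (a, Fin.cons b c) := by
  simp only [trace, diag_apply, mul_apply, Fintype.sum_prod_type, kroneckerMap_apply, consK,
    of_apply]
  refine Finset.sum_congr rfl fun a _ => ?_
  rw [← Equiv.sum_comp (Fin.consEquiv fun _ : Fin (k + 1) => B), Fintype.sum_prod_type]
  refine Finset.sum_congr rfl fun b _ => ?_
  simp only [Finset.mul_sum]
  rw [Finset.sum_comm]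
  refine Finset.sum_congr rfl fun a' _ => ?_
  conv_rhs => rw [Finset.sum_comm]
  refine Finset.sum_congr rfl fun c _ => ?_
  rw [← Equiv.sum_comp (Fin.consEquiv fun _ : Fin (k + 1) => B), Fintype.sum_prod_type]
  refine Finset.sum_congr rfl fun b' _ => Finset.sum_congr rfl fun c' _ => ?_
  simp [Fin.consEquiv]
  ring

lemma eve_slots [Fintype K] [Fintype A] [Fintype B] [DecidableEq B] [Fintype W] [DecidableEq W]
    (V : Matrix (A × B) W ℂ)
    (X : Matrix (A × (Fin (k + 1) → B)) (A × (Fin (k + 1) → B)) ℂ) (hX : X.PosSemidef)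
    (hm : ∀ a b a' b', ∑ c : Fin k → B, X (a, Fin.cons b c) (a', Fin.cons b' c) =
      (V * Vᴴ) (a, b) (a', b'))
    (J : K → Matrix (Fin k → B) (Fin k → B) ℂ) (hJ : ∀ y, (J y).PosSemidef)
    (hJ1 : (1 - ∑ y, J y).PosSemidef) :
    ∃ Q : K → Matrix W W ℂ, (∀ y, (Q y).PosSemidef) ∧ (1 - ∑ y, Q y).PosSemidef ∧
      ∀ (M : Matrix A A ℂ) (N : Matrix B B ℂ) (y : K),
        (Q y * (Vᴴ * (M ⊗ₖ N) * V)).trace = ((M ⊗ₖ consK N (J y)) * X).trace := by
  classical
  obtain ⟨L0, hL0⟩ := psd_eq_mul_conj hX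
  let L : Matrix (A × B) ((Fin k → B) × (A × (Fin (k + 1) → B))) ℂ :=
    Matrix.of fun p q => L0 (p.1, Fin.cons p.2 q.1) q.2
  have hL : L * Lᴴ = V * Vᴴ := by
    ext ⟨a, b⟩ ⟨a', b'⟩
    rw [← hm, hL0]
    simp [L, mul_apply, Fintype.sum_prod_type]
  obtain ⟨U, hU, hU1⟩ := exists_contraction V L hL
  let P : K → Matrix ((Fin k → B) × (A × (Fin (k + 1) → B))) _ ℂ :=
    fun y => (J y)ᵀ ⊗ₖ (1 : Matrix (A × (Fin (k + 1) → B)) (A × (Fin (k + 1) → B)) ℂ)
  have hP : ∀ y, (P y).PosSemidef := fun y => (hJ y).transpose.kronecker PosSemidef.one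
  have hP1 : (1 - ∑ y, P y).PosSemidef := by
    have e : (1 : Matrix ((Fin k → B) × (A × (Fin (k + 1) → B))) _ ℂ) - ∑ y, P y =
        (1 - ∑ y, J y)ᵀ ⊗ₖ (1 : Matrix (A × (Fin (k + 1) → B)) _ ℂ) := by
      ext ⟨c, r⟩ ⟨c', r'⟩
      simp [P, Matrix.sum_apply, Finset.sum_mul, one_apply, eq_comm (a := c')]
      by_cases hc : c = c' <;> by_cases hr : r = r' <;> simp [hc, hr]
    rw [e]
    exact hJ1.transpose.kronecker PosSemidef.one
  refine ⟨fun y => U * P y * Uᴴ, fun y => (hP y).mul_mul_conjTranspose_same U, ?_, ?_⟩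
  · rw [← Matrix.sum_mul, ← Matrix.mul_sum]
    have e : 1 - U * (∑ y, P y) * Uᴴ = (1 - U * Uᴴ) + U * (1 - ∑ y, P y) * Uᴴ := by
      rw [Matrix.mul_sub, Matrix.sub_mul, Matrix.mul_one]; abel
    rw [e]
    exact hU1.add (hP1.mul_mul_conjTranspose_same U)
  · intro M N y
    have e1 : (U * P y * Uᴴ * (Vᴴ * (M ⊗ₖ N) * V)).trace =
        ((M ⊗ₖ N) * (L * P y * Lᴴ)).trace := by
      rw [trace_mul_comm, hU, conjTranspose_mul]
      simp only [Matrix.mul_assoc]
      rw [trace_mul_comm]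
      simp only [Matrix.mul_assoc]
    have e3 : ∀ a b a' b', (L * P y * Lᴴ) (a', b') (a, b) =
        ∑ c, ∑ c', J y c c' * X (a', Fin.cons b' c') (a, Fin.cons b c) := by
      intro a b a' b'
      rw [hL0]
      simp [L, P, mul_apply, Fintype.sum_prod_type (α₁ := Fin k → B), one_apply, Finset.mul_sum,
        Finset.sum_mul]
      refine Finset.sum_congr rfl fun c _ => ?_
      rw [Finset.sum_comm]
      exact Finset.sum_congr rfl fun c' _ => Finset.sum_congr rfl fun r _ => by ring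
    rw [e1, trace_cons]
    simp only [trace, diag_apply, mul_apply (M := M ⊗ₖ N), Fintype.sum_prod_type,
      kroneckerMap_apply, e3]

end Vale.Agent.P372.Bits
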