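import Vale.Agent.P372.Main

/-! Symmetric extensions to `k + 1` systems. -/

open Matrix
open scoped Kronecker ComplexOrder MatrixOrder

namespace Vale.Agent.P372.Bits

variable {A A' B B' I : Type*}

/-- A permutation invariant extension to `k + 1` copies of the second system. -/
def ExtK [Fintype B] (k : ℕ) (σ : Matrix (A × B) (A × B) ℂ) : Prop :=
  ∃ E : Matrix (A × (Fin (k + 1) → B)) (A × (Fin (k + 1) → B)) ℂ, E.PosSemidef ∧
    (∀ (π : Equiv.Perm (Fin (k + 1))) a f a' f',
      E (a, fun l => f (π l)) (a', fun l => f' (π l)) = E (a, f) (a', f')) ∧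
    (∀ a b a' b', ∑ c : Fin k → B, E (a, Fin.cons b c) (a', Fin.cons b' c) = σ (a, b) (a', b'))

/-- `σ` lies between a positive product operator and `(k + 1) / k` times it. -/
def WinK (k : ℕ) (σ : Matrix (A × B) (A × B) ℂ) : Prop :=
  ∃ (P : Matrix A A ℂ) (Q : Matrix B B ℂ), P.PosSemidef ∧ Q.PosSemidef ∧
    (σ - P ⊗ₖ Q).PosSemidef ∧ (((k + 1 : ℕ) : ℂ) • (P ⊗ₖ Q) - (k : ℂ) • σ).PosSemidef

lemma winK_ext [Fintype A] [Fintype B] {k : ℕ} (hk : 1 ≤ k) {σ : Matrix (A × B) (A × B) ℂ}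
    (h : WinK k σ) : ExtK k σ := by
  classical
  obtain ⟨P, Q, hP, hQ, hlo, hhi⟩ := h
  by_cases hz : Q.trace = 0
  · have q0 : Q = 0 := hQ.trace_eq_zero_iff.mp hz
    subst q0
    simp only [kronecker_zero, sub_zero, smul_zero, zero_sub] at hlo hhi
    have hk' : (k : ℂ) ≠ 0 := Nat.cast_ne_zero.mpr (by omega)
    have h1 := Complex.nonneg_iff.mp hhi.trace_nonneg
    have h2 := Complex.nonneg_iff.mp hlo.trace_nonneg
    simp only [trace_neg, trace_smul, smul_eq_mul, Complex.neg_re, Complex.mul_re,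
      Complex.natCast_re, Complex.natCast_im, zero_mul, sub_zero] at h1
    have t0 : σ.trace = 0 := by
      have : (1 : ℝ) ≤ k := by exact_mod_cast hk
      exact Complex.ext (by simp only [Complex.zero_re]; nlinarith [h1.1, h2.1]) h2.2.symm
    have s0 : σ = 0 := hlo.trace_eq_zero_iff.mp t0
    subst s0
    exact ⟨0, PosSemidef.zero, by simp, by simp⟩
  obtain ⟨tr, htr⟩ : ∃ tr : ℂ, Q.trace = tr := ⟨_, rfl⟩
  rw [htr] at hz
  have htr0 : 0 ≤ tr := htr ▸ hQ.trace_nonneg
  obtain ⟨β, hβQ⟩ : ∃ β : Matrix B B ℂ, β = tr⁻¹ • Q := ⟨_, rfl⟩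
  have hinv : (0 : ℂ) ≤ tr⁻¹ := by
    have h1 := Complex.nonneg_iff.mp htr0
    have h2 : tr = ((tr.re : ℝ) : ℂ) := Complex.ext rfl h1.2.symm
    rw [h2, ← Complex.ofReal_inv]
    exact Complex.zero_le_real.mpr (inv_nonneg.mpr h1.1)
  have hβ : β.PosSemidef := hβQ ▸ hQ.smul hinv
  have hβt : ∑ c, β c c = 1 := by
    have : β.trace = 1 := by rw [hβQ, trace_smul, htr, smul_eq_mul, inv_mul_cancel₀ hz]
    exact this
  have hQβ : ∀ i j, Q i j = tr * β i j := fun i j => by
    rw [hβQ]; simp [← mul_assoc, mul_inv_cancel₀ hz]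
  obtain ⟨sA, hsA⟩ : ∃ sA : Matrix A A ℂ, sA = Matrix.of fun a a' => ∑ b, σ (a, b) (a', b) :=
    ⟨_, rfl⟩
  have hA : ((((k + 1 : ℕ) : ℂ) * tr) • P - (k : ℂ) • sA).PosSemidef := by
    have e : (((k + 1 : ℕ) : ℂ) * tr) • P - (k : ℂ) • sA =
        ∑ b, (((k + 1 : ℕ) : ℂ) • (P ⊗ₖ Q) - (k : ℂ) • σ).submatrix
          (fun a => (a, b)) (fun a => (a, b)) := by
      ext a a'
      simp [hsA, Matrix.sum_apply, Finset.sum_sub_distrib, ← Finset.mul_sum, ← htr, trace]
      ring
    rw [e]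
    exact posSemidef_sum _ fun b _ => hhi.submatrix _
  let J1 : Matrix B B ℂ := Matrix.of fun _ _ => 1
  have hJ1 : J1.PosSemidef := by
    have : J1 = Matrix.of (fun (_ : B) (_ : Unit) => (1 : ℂ)) *
        (Matrix.of (fun (_ : B) (_ : Unit) => (1 : ℂ)))ᴴ := by
      ext i j; simp [J1, mul_apply, conjTranspose_apply]
    rw [this]
    exact posSemidef_self_mul_conjTranspose _
  let γ : Fin (k + 1) → Fin (k + 1) → Matrix B B ℂ := fun i l => if l = i then J1 else β
  have hγ : ∀ i l, (γ i l).PosSemidef := fun i l => psd_ite hJ1 hβ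
  refine ⟨Matrix.of fun p q => (∑ i, σ (p.1, p.2 i) (q.1, q.2 i) * piK (γ i) p.2 q.2) -
      (k : ℂ) * sA p.1 q.1 * piK (fun _ => β) p.2 q.2, ?_, ?_, ?_⟩
  · have p1 : (∑ i, ((σ - P ⊗ₖ Q) ⊗ₖ piK (γ i)).submatrix
        (fun p : A × (Fin (k + 1) → B) => ((p.1, p.2 i), p.2))
        (fun p : A × (Fin (k + 1) → B) => ((p.1, p.2 i), p.2))).PosSemidef :=
      posSemidef_sum _ fun i _ => (hlo.kronecker (piK_psd (hγ i))).submatrix _
    have p2 := hA.kronecker (piK_psd (I := Fin (k + 1)) (M := fun _ => β) fun _ => hβ)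
    refine Eq.subst (motive := Matrix.PosSemidef) ?_ (p1.add p2)
    ext p q
    have key : ∀ i, β (p.2 i) (q.2 i) * piK (γ i) p.2 q.2 = piK (fun _ => β) p.2 q.2 := by
      intro i
      simp only [piK, of_apply, γ]
      rw [← Finset.mul_prod_erase _ _ (Finset.mem_univ i),
        ← Finset.mul_prod_erase _ _ (Finset.mem_univ i), if_pos rfl]
      simp only [J1, of_apply, one_mul]
      congr 1
      exact Finset.prod_congr rfl fun l hl => by rw [if_neg (Finset.ne_of_mem_erase hl)]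
    simp only [Matrix.add_apply, Matrix.sum_apply, submatrix_apply, kroneckerMap_apply,
      Matrix.sub_apply, Matrix.smul_apply, of_apply, smul_eq_mul, sub_mul, Finset.sum_sub_distrib,
      hQβ]
    have : ∑ i, P p.1 q.1 * (tr * β (p.2 i) (q.2 i)) * piK (γ i) p.2 q.2 =
        ((k + 1 : ℕ) : ℂ) * tr * P p.1 q.1 * piK (fun _ => β) p.2 q.2 := by
      rw [show ∑ i, P p.1 q.1 * (tr * β (p.2 i) (q.2 i)) * piK (γ i) p.2 q.2 =
          ∑ _i : Fin (k + 1), tr * P p.1 q.1 * piK (fun _ => β) p.2 q.2 from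
        Finset.sum_congr rfl fun i _ => by rw [← key i]; ring]
      simp only [Finset.sum_const, Finset.card_univ, Fintype.card_fin, nsmul_eq_mul]
      ring
    rw [this]
    ring
  · intro π a f a' f'
    simp only [of_apply]
    have hp : ∀ M : Fin (k + 1) → Matrix B B ℂ,
        piK M (fun l => f (π l)) (fun l => f' (π l)) = piK (fun l => M (π.symm l)) f f' := by
      intro M
      simp only [piK, of_apply]
      rw [← Equiv.prod_comp π fun l => M (π.symm l) (f l) (f' l)]
      simp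
    simp only [hp]
    congr 1
    rw [← Equiv.sum_comp π fun i => σ (a, f i) (a', f' i) * piK (γ i) f f']
    refine Finset.sum_congr rfl fun i _ => ?_
    congr 2
    funext l
    simp only [γ, Equiv.symm_apply_eq]
  · intro a b a' b'
    simp only [of_apply, Finset.sum_sub_distrib]
    rw [Finset.sum_comm, Fin.sum_univ_succ]
    have z : ∀ c : Fin k → B,
        piK (γ 0) (Fin.cons b c) (Fin.cons b' c) = ∏ l : Fin k, β (c l) (c l) := by
      intro c
      simp [piK, γ, J1, Fin.prod_univ_succ, Fin.succ_ne_zero]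
    have s : ∀ (j : Fin k) (c : Fin k → B),
        σ (a, c j) (a', c j) * piK (γ j.succ) (Fin.cons b c) (Fin.cons b' c) =
          β b b' * ∏ l, if l = j then σ (a, c l) (a', c l) else β (c l) (c l) := by
      intro j c
      simp only [piK, of_apply, γ, Fin.prod_univ_succ, Fin.cons_zero, Fin.cons_succ,
        (Fin.succ_ne_zero j).symm, if_false, Fin.succ_inj]
      rw [mul_left_comm]
      congr 1
      rw [← Finset.mul_prod_erase _ (fun l : Fin k => (if l = j then J1 else β) (c l) (c l))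
          (Finset.mem_univ j),
        ← Finset.mul_prod_erase _
          (fun l : Fin k => if l = j then σ (a, c l) (a', c l) else β (c l) (c l))
          (Finset.mem_univ j), if_pos rfl, if_pos rfl]
      simp only [J1, of_apply, one_mul]
      congr 1
      refine Finset.prod_congr rfl fun l hl => ?_
      rw [if_neg (Finset.ne_of_mem_erase hl), if_neg (Finset.ne_of_mem_erase hl)]
    have t0 : ∑ c : Fin k → B, piK (fun _ => β) (Fin.cons b c) (Fin.cons b' c) = β b b' := by
      simp only [piK, of_apply, Fin.prod_univ_succ, Fin.cons_zero, Fin.cons_succ, ← Finset.mul_sum]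
      rw [← Fintype.prod_sum fun (_ : Fin k) c => β c c]
      simp [hβt]
    have t1 : ∀ j : Fin k, ∑ c : Fin k → B, σ (a, (Fin.cons b c : Fin (k + 1) → B) j.succ)
        (a', (Fin.cons b' c : Fin (k + 1) → B) j.succ) *
          piK (γ j.succ) (Fin.cons b c) (Fin.cons b' c) = β b b' * sA a a' := by
      intro j
      simp only [Fin.cons_succ, s, ← Finset.mul_sum]
      congr 1
      rw [← Fintype.prod_sum fun (l : Fin k) c => if l = j then σ (a, c) (a', c) else β c c,
        ← Finset.mul_prod_erase _ _ (Finset.mem_univ j), Finset.prod_eq_one fun l hl => ?_]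
      · simp [hsA]
      · simp [Finset.ne_of_mem_erase hl, hβt]
    rw [Finset.sum_congr rfl fun j _ => t1 j]
    simp only [Fin.cons_zero, z, ← Finset.mul_sum, t0, Finset.sum_const, Finset.card_univ,
      Fintype.card_fin, nsmul_eq_mul]
    rw [← Fintype.prod_sum fun (_ : Fin k) c => β c c]
    simp only [hβt, Finset.prod_const_one]
    ring

lemma winK_filter [Fintype A] [DecidableEq A] [Fintype B] [Fintype B'] {k : ℕ}
    {σ : Matrix (A × B) (A × B) ℂ} (h : WinK k σ) (F : Matrix B' B ℂ) :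
    WinK k (((1 : Matrix A A ℂ) ⊗ₖ F) * σ * ((1 : Matrix A A ℂ) ⊗ₖ F)ᴴ) := by
  obtain ⟨P, Q, hP, hQ, hlo, hhi⟩ := h
  have e : ((1 : Matrix A A ℂ) ⊗ₖ F) * (P ⊗ₖ Q) * ((1 : Matrix A A ℂ) ⊗ₖ F)ᴴ =
      P ⊗ₖ (F * Q * Fᴴ) := by
    rw [conjTranspose_kronecker, conjTranspose_one, ← mul_kronecker_mul, ← mul_kronecker_mul,
      Matrix.one_mul, Matrix.mul_one]
  refine ⟨P, F * Q * Fᴴ, hP, hQ.mul_mul_conjTranspose_same F, ?_, ?_⟩
  · rw [← e, ← Matrix.sub_mul, ← Matrix.mul_sub]
    exact hlo.mul_mul_conjTranspose_same _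
  · rw [← e]
    refine Eq.subst (motive := Matrix.PosSemidef) ?_
      (hhi.mul_mul_conjTranspose_same ((1 : Matrix A A ℂ) ⊗ₖ F))
    rw [Matrix.mul_sub, Matrix.sub_mul, Matrix.mul_smul, Matrix.smul_mul, Matrix.mul_smul,
      Matrix.smul_mul]

lemma extK_left [Fintype A] [Fintype A'] [Fintype B] [DecidableEq B] {k : ℕ}
    {σ : Matrix (A × B) (A × B) ℂ} (h : ExtK k σ) (G : Matrix A' A ℂ) :
    ExtK k ((G ⊗ₖ (1 : Matrix B B ℂ)) * σ * (G ⊗ₖ (1 : Matrix B B ℂ))ᴴ) := by
  obtain ⟨E, hE, h1, h2⟩ := h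
  refine ⟨(G ⊗ₖ (1 : Matrix (Fin (k + 1) → B) (Fin (k + 1) → B) ℂ)) * E *
      (G ⊗ₖ (1 : Matrix (Fin (k + 1) → B) (Fin (k + 1) → B) ℂ))ᴴ,
    hE.mul_mul_conjTranspose_same _, ?_, ?_⟩
  · intro π a f a' f'
    simp only [conj_left_apply, h1]
  · intro a b a' b'
    simp only [conj_left_apply, ← h2, Finset.mul_sum, Finset.sum_mul]
    rw [Finset.sum_comm]
    exact Finset.sum_congr rfl fun y _ => Finset.sum_comm

lemma extK_piP [Fintype I] [Fintype A] [Fintype B] [DecidableEq I] {k : ℕ}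
    {σ : I → Matrix (A × B) (A × B) ℂ} (h : ∀ i, ExtK k (σ i)) : ExtK k (piP σ) := by
  choose E hE h1 h2 using h
  refine ⟨(piK E).submatrix (fun p i => (p.1 i, fun l => p.2 l i))
    (fun p i => (p.1 i, fun l => p.2 l i)), (piK_psd hE).submatrix _, ?_, ?_⟩
  · intro π a f a' f'
    simp only [submatrix_apply, piK, of_apply]
    exact Finset.prod_congr rfl fun i _ => h1 i π (a i) (fun l => f l i) (a' i) (fun l => f' l i)
  · intro a b a' b'
    simp only [submatrix_apply, piK, piP, of_apply, ← h2, Fintype.prod_sum]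
    refine Fintype.sum_equiv (Equiv.piComm fun (_ : Fin k) (_ : I) => B) _ _ fun c => ?_
    refine Finset.prod_congr rfl fun i _ => ?_
    have e : ∀ b : I → B, (fun l => (Fin.cons b c : Fin (k + 1) → I → B) l i) =
        Fin.cons (b i) (fun l => c l i) := by
      intro b
      funext l
      refine Fin.cases ?_ ?_ l
      · simp
      · intro j; simp
    rw [e b, e b']
    rfl

lemma winK_piP [Fintype I] [Fintype A] [DecidableEq A] [Fintype B] [DecidableEq B] (k : ℕ)
    (ρ : Matrix (A × B) (A × B) ℂ) (lam mu : ℝ) (hl : 0 ≤ lam)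
    (hlo : (ρ - (lam : ℂ) • 1).PosSemidef) (hhi : ((mu : ℂ) • 1 - ρ).PosSemidef)
    (hn : k * mu ^ Fintype.card I ≤ (k + 1) * lam ^ Fintype.card I) :
    WinK k (piP fun _ : I => ρ) := by
  classical
  let n := Fintype.card I
  have hl1 : (((lam : ℂ) • 1 : Matrix (A × B) (A × B) ℂ)).PosSemidef :=
    PosSemidef.one.smul (Complex.zero_le_real.mpr hl)
  have hρ : ρ.PosSemidef := by
    simpa using hlo.add hl1
  let f : (I → A) × (I → B) → I → A × B := fun p i => (p.1 i, p.2 i)
  have hinj : Function.Injective f := (Equiv.arrowProdEquivProdArrow I _ _).symm.injective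
  have h1 : (piP (fun _ : I => ρ) - ((lam ^ n : ℝ) : ℂ) • 1).PosSemidef := by
    have := (piK_add_sub_psd (M := fun _ : I => (lam : ℂ) • (1 : Matrix (A × B) (A × B) ℂ))
      (fun _ => hl1) (fun _ => hlo)).submatrix f
    simp only [add_sub_cancel, piK_smul_one] at this
    simp only [submatrix_sub, submatrix_smul, Pi.sub_apply, Pi.smul_apply, submatrix_one f hinj]
      at this
    simpa [piP_eq, f, n] using this
  have h2 : (((mu ^ n : ℝ) : ℂ) • 1 - piP (fun _ : I => ρ)).PosSemidef := by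
    have := (piK_add_sub_psd (M := fun _ : I => ρ)
      (fun _ => hρ) (fun _ => hhi)).submatrix f
    simp only [add_sub_cancel, piK_smul_one] at this
    simp only [submatrix_sub, submatrix_smul, Pi.sub_apply, Pi.smul_apply, submatrix_one f hinj]
      at this
    simpa [piP_eq, f, n] using this
  refine ⟨((lam ^ n : ℝ) : ℂ) • 1, 1,
    PosSemidef.one.smul (Complex.zero_le_real.mpr (by positivity)), PosSemidef.one, ?_, ?_⟩
  · rw [smul_kronecker, one_kronecker_one]
    exact h1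
  · rw [smul_kronecker, one_kronecker_one]
    have e : ((k + 1 : ℕ) : ℂ) • ((lam ^ n : ℝ) : ℂ) • (1 : Matrix ((I → A) × (I → B)) _ ℂ) -
          (k : ℂ) • piP (fun _ => ρ) =
        (((k + 1) * lam ^ n - k * mu ^ n : ℝ) : ℂ) • 1 +
          (k : ℂ) • (((mu ^ n : ℝ) : ℂ) • 1 - piP (fun _ => ρ)) := by
      rw [smul_smul, smul_sub, smul_smul]
      push_cast
      rw [sub_smul]
      abel
    rw [e]
    refine (PosSemidef.one.smul (Complex.zero_le_real.mpr (by linarith))).add (h2.smul ?_)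
    have : (k : ℂ) = ((k : ℝ) : ℂ) := by simp
    rw [this]
    exact Complex.zero_le_real.mpr (Nat.cast_nonneg k)

end Vale.Agent.P372.Bits
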