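import Vale.Agent.P372.Main

/-! Measurements on `k` slots which wait for a given outcome. -/

open Matrix
open scoped Kronecker ComplexOrder MatrixOrder

namespace Vale.Agent.P372.Bits

variable {I X Key : Type*}

lemma piK_update_sum {J : Type*} [Fintype I] [DecidableEq I] (M : I → Matrix X X ℂ) (i : I)
    (s : Finset J) (N : J → Matrix X X ℂ) :
    piK (Function.update M i (∑ y ∈ s, N y)) = ∑ y ∈ s, piK (Function.update M i (N y)) := by
  ext f g
  have e : ∀ Y : Matrix X X ℂ, piK (Function.update M i Y) f g =
      Y (f i) (g i) * ∏ l ∈ Finset.univ.erase i, M l (f l) (g l) := by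
    intro Y
    simp only [piK, of_apply]
    rw [← Finset.mul_prod_erase _ _ (Finset.mem_univ i), Function.update_self]
    congr 1
    exact Finset.prod_congr rfl fun l hl => by
      rw [Function.update_of_ne (Finset.ne_of_mem_erase hl)]
  simp only [e, Matrix.sum_apply, Finset.sum_mul]

/-- `B` in the slots where `x` is true, `C` elsewhere. -/
def pat (B C : Matrix X X ℂ) (x : I → Bool) : I → Matrix X X ℂ :=
  fun i => if x i then B else C

lemma pat_psd [Fintype I] [Fintype X] {B C : Matrix X X ℂ} (hB : B.PosSemidef)
    (hC : C.PosSemidef) (x : I → Bool) : ∀ i, (pat B C x i).PosSemidef := by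
  intro i
  unfold pat
  split_ifs <;> assumption

lemma sum_pat [Fintype I] [DecidableEq I] [DecidableEq X] {B C : Matrix X X ℂ} (h : B + C = 1) :
    ∑ x : I → Bool, piK (pat B C x) = 1 := by
  rw [← piK_one (I := I) (A := X)]
  have e : (fun _ : I => (1 : Matrix X X ℂ)) = fun _ : I => ∑ j : Bool, if j then B else C := by
    funext i
    simp [h]
  rw [e, piK_sum]
  rfl

/-- Exactly one slot gives `B`: these effects add up to at most one. -/
lemma one_hot_le [Fintype I] [DecidableEq I] [Fintype X] [DecidableEq X] {B C : Matrix X X ℂ}
    (hB : B.PosSemidef) (hC : C.PosSemidef) (h : B + C = 1) :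
    (1 - ∑ i, piK (Function.update (fun _ : I => C) i B)).PosSemidef := by
  classical
  let u : I → I → Bool := fun i l => decide (l = i)
  have hu : Function.Injective u := fun i j hij => by
    have := congrFun hij i
    simpa [u] using this
  have e : ∀ i, piK (Function.update (fun _ : I => C) i B) = piK (pat B C (u i)) := by
    intro i
    congr 1
    funext l
    by_cases hl : l = i <;> simp [pat, u, Function.update, hl]
  rw [← sum_pat (I := I) h, Finset.sum_congr rfl fun i _ => e i,
    ← Finset.sum_image (f := fun x => piK (pat B C x)) (g := u) fun i _ j _ hij => hu hij,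
    ← Finset.sum_sdiff (Finset.subset_univ (Finset.univ.image u)), add_sub_cancel_right]
  exact posSemidef_sum _ fun x _ => piK_psd (pat_psd hB hC x)

/-- Measurement of all slots which reports the key found in some slot with the wanted outcome. -/
lemma exists_guess [Fintype I] [DecidableEq I] [Fintype X] [DecidableEq X] [Fintype Key]
    (N : Key → Matrix X X ℂ) (hN : ∀ y, (N y).PosSemidef) (hC : (1 - ∑ y, N y).PosSemidef) :
    ∃ J : Key → Matrix (I → X) (I → X) ℂ, (∀ y, (J y).PosSemidef) ∧
      ∑ y, J y = 1 - piK (fun _ : I => 1 - ∑ y, N y) ∧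
      ∀ y, ((∑ i, piK (Function.update (fun _ : I => (1 : Matrix X X ℂ)) i (N y))) -
        J y).PosSemidef := by
  classical
  obtain ⟨B, hB⟩ : ∃ B, B = ∑ y, N y := ⟨_, rfl⟩
  have hBp : B.PosSemidef := hB ▸ posSemidef_sum _ fun y _ => hN y
  rw [← hB] at hC ⊢
  have hBC : B + (1 - B) = 1 := add_sub_cancel _ _
  let P : (I → Bool) → I → Key → Matrix (I → X) (I → X) ℂ :=
    fun x i y => if x i then piK (Function.update (pat B (1 - B) x) i (N y)) else 0
  have hP : ∀ x i y, (P x i y).PosSemidef := by
    intro x i y
    refine psd_ite ?_ PosSemidef.zero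
    refine piK_psd fun l => ?_
    by_cases hl : l = i
    · subst hl; simpa using hN y
    · simpa [Function.update_of_ne hl] using pat_psd hBp hC x l
  have slot : ∀ i y, piK (Function.update (fun _ : I => (1 : Matrix X X ℂ)) i (N y)) =
      ∑ x : I → Bool, P x i y := by
    intro i y
    have e : Function.update (fun _ : I => (1 : Matrix X X ℂ)) i (N y) = fun l =>
        ∑ j : Bool, (if l = i then (if j then N y else 0) else (if j then B else 1 - B)) := by
      funext l
      by_cases hl : l = i
      · subst hl; simp
      · simp [hl]
    rw [e, piK_sum]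
    refine Finset.sum_congr rfl fun x _ => ?_
    simp only [P]
    split_ifs with hx
    · congr 1
      funext l
      by_cases hl : l = i
      · subst hl; simp [hx]
      · simp [hl, pat]
    · ext f g
      simp only [piK, of_apply, Matrix.zero_apply]
      exact Finset.prod_eq_zero (Finset.mem_univ i) (by simp [hx])
  have total : ∀ x i, x i = true → ∑ y, P x i y = piK (pat B (1 - B) x) := by
    intro x i hx
    simp only [P, hx, if_true]
    rw [← piK_update_sum, ← hB]
    congr 1
    funext l
    by_cases hl : l = i
    · subst hl; simp [pat, hx]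
    · simp [Function.update_of_ne hl]
  let J : Key → Matrix (I → X) (I → X) ℂ :=
    fun y => ∑ x : I → Bool, if h : ∃ i, x i = true then P x h.choose y else 0
  refine ⟨J, fun y => posSemidef_sum _ fun x _ => ?_, ?_, fun y => ?_⟩
  · split_ifs
    · exact hP _ _ _
    · exact PosSemidef.zero
  · rw [Finset.sum_comm, eq_sub_iff_add_eq, ← sum_pat (I := I) hBC,
      ← Finset.add_sum_erase _ (fun x : I → Bool => piK (pat B (1 - B) x))
        (Finset.mem_univ fun _ => false),
      ← Finset.add_sum_erase _ _ (Finset.mem_univ fun _ : I => false), add_comm]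
    have hf : ¬ ∃ i : I, (fun _ : I => false) i = true := by simp
    have hc : pat B (1 - B) (fun _ : I => false) = fun _ => 1 - B := by
      funext i; simp [pat]
    simp only [dif_neg hf, Finset.sum_const_zero, zero_add, hc]
    congr 1
    refine Finset.sum_congr rfl fun x hx => ?_
    have hex : ∃ i, x i = true := by
      by_contra hno
      push Not at hno
      exact Finset.ne_of_mem_erase hx (funext fun i => by simpa using hno i)
    simp only [dif_pos hex]
    exact total x _ hex.choose_spec
  · rw [Finset.sum_congr rfl fun i _ => slot i y, Finset.sum_comm, ← Finset.sum_sub_distrib]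
    refine posSemidef_sum _ fun x _ => ?_
    split_ifs with hex
    · rw [← Finset.add_sum_erase _ _ (Finset.mem_univ hex.choose), add_sub_cancel_left]
      exact posSemidef_sum _ fun i _ => hP _ _ _
    · rw [sub_zero]
      exact posSemidef_sum _ fun i _ => hP _ _ _

end Vale.Agent.P372.Bits
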