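import Vale.Agent.P372.Bits.Eve
import Vale.Agent.P372.Bits.Slots
import Vale.Agent.P372.Bits.Defs

/-! No key when one party's messages take boundedly many values. -/

open Matrix
open scoped Kronecker ComplexOrder MatrixOrder

namespace Vale.Agent.P372.Bits

section

variable {J E Key : Type*} [Fintype J] [DecidableEq J] [Fintype E] [DecidableEq E]
  [Fintype Key] [DecidableEq Key]

lemma test_guess' (ω : J → Key → Key → Matrix E E ℂ) (hω : ∀ j a b, (ω j a b).PosSemidef)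
    (Q : J → Key → Matrix E E ℂ) (hQ : ∀ j a, (Q j a).PosSemidef)
    (hQ1 : ∀ j, (1 - ∑ a, Q j a).PosSemidef)
    (σ : Matrix (J × E) (J × E) ℂ) (hσ : σ.PosSemidef) (hσ1 : σ.trace = 1)
    (cr : ℝ) (hcr0 : 0 ≤ cr) (c : ℂ) (hc' : c = (cr : ℂ)) :
    (∑ j, ∑ a, ∑ b, (Q j a * ω j a b).trace.re) - cr ≤ traceNorm (joint ω - perfect c σ) := by
  have hQle : ∀ j a, (1 - Q j a).PosSemidef := by
    intro j a
    have : 1 - Q j a = (1 - ∑ b, Q j b) + ∑ b ∈ Finset.univ.erase a, Q j b := by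
      rw [← Finset.add_sum_erase _ _ (Finset.mem_univ a)]; abel
    rw [this]
    exact (hQ1 j).add (posSemidef_sum _ fun b _ => hQ j b)
  have hcσ : (c • σ).PosSemidef := hσ.smul (hc' ▸ Complex.zero_le_real.mpr hcr0)
  have a1 : (blkD fun k : Key × Key => blkD fun j => (ω j k.1 k.2)ᵀ).PosSemidef :=
    blkD_psd fun k => blkD_psd fun j => (hω j k.1 k.2).transpose
  have a2 : (blkD fun k : Key × Key => if k.1 = k.2 then c • σ else 0).PosSemidef :=
    blkD_psd fun k => psd_ite hcσ PosSemidef.zero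
  have hherm := a1.isHermitian.sub a2.isHermitian
  let U : Key × Key → Matrix (J × E) (J × E) ℂ := fun k => blkD fun j => (Q j k.1)ᵀ
  have hU : ∀ k, (U k).PosSemidef := fun k => blkD_psd fun j => (hQ j _).transpose
  have hU1 : (1 - blkD U).PosSemidef := by
    rw [blkD_one_sub]
    refine blkD_psd fun k => ?_
    simp only [U]
    rw [blkD_one_sub]
    refine blkD_psd fun j => ?_
    rw [← transpose_one, ← transpose_sub]
    exact (hQle j _).transpose
  refine le_trans ?_ (le_traceNorm (blkD_psd hU) hU1 hherm)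
  have d1 : (blkD U * perfect c σ).trace.re ≤ cr := by
    rw [perfect, trace_blkD_mul]
    have : ∑ k : Key × Key, (U k * (if k.1 = k.2 then c • σ else 0)).trace =
        c * (blkD (fun j => (∑ a, Q j a)ᵀ) * σ).trace := by
      have e : blkD (fun j => (∑ a, Q j a)ᵀ) = ∑ a, blkD (fun j => (Q j a)ᵀ) := by
        rw [blkD_sum]
        simp only [transpose_sum]
      rw [e, Matrix.sum_mul, trace_sum, Finset.mul_sum, Fintype.sum_prod_type]
      refine Finset.sum_congr rfl fun a _ => ?_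
      rw [Finset.sum_eq_single a]
      · simp [U]
      · intro b _ hb
        simp [Ne.symm hb]
      · simp
    rw [this, hc', Complex.re_ofReal_mul]
    refine mul_le_of_le_one_right hcr0 ?_
    have h0 : (1 - blkD (fun j => (∑ a, Q j a)ᵀ)).PosSemidef := by
      rw [blkD_one_sub]
      refine blkD_psd fun j => ?_
      rw [← transpose_one, ← transpose_sub]
      exact (hQ1 j).transpose
    have := trace_mul_le h0 hσ
    rwa [hσ1, Complex.one_re] at this
  have d2 : (∑ j, ∑ a, ∑ b, (Q j a * ω j a b).trace.re) = (blkD U * joint ω).trace.re := by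
    rw [joint, trace_blkD_mul]
    simp only [U, trace_blkD_mul, ← transpose_mul, trace_transpose, Complex.re_sum]
    rw [Finset.sum_comm (γ := Key × Key)]
    refine Finset.sum_congr rfl fun j _ => ?_
    rw [Fintype.sum_prod_type]
    exact Finset.sum_congr rfl fun a _ => Finset.sum_congr rfl fun b _ => by rw [trace_mul_comm]
  change _ ≤ (blkD U * (joint ω - perfect c σ)).trace.re
  rw [d2, Matrix.mul_sub, trace_sub, Complex.sub_re]
  linarith

end

section

variable {A B W : Type*} [Fintype A] [Fintype B] [Fintype W] {k : ℕ}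

/-- Expectation of a product observable in an extension. -/
noncomputable def evX (X : Matrix (A × (Fin (k + 1) → B)) (A × (Fin (k + 1) → B)) ℂ)
    (P : Matrix A A ℂ) (F : Matrix (Fin (k + 1) → B) (Fin (k + 1) → B) ℂ) : ℝ :=
  ((P ⊗ₖ F) * X).trace.re

variable {X : Matrix (A × (Fin (k + 1) → B)) (A × (Fin (k + 1) → B)) ℂ}

lemma ev_sub (P : Matrix A A ℂ) (F F' : Matrix (Fin (k + 1) → B) (Fin (k + 1) → B) ℂ) :
    evX X P (F - F') = evX X P F - evX X P F' := by
  have : P ⊗ₖ (F - F') = P ⊗ₖ F - P ⊗ₖ F' := by ext p q; simp [mul_sub]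
  simp [evX, this, Matrix.sub_mul]

lemma ev_add (P : Matrix A A ℂ) (F F' : Matrix (Fin (k + 1) → B) (Fin (k + 1) → B) ℂ) :
    evX X P (F + F') = evX X P F + evX X P F' := by
  simp [evX, kronecker_add, Matrix.add_mul]

lemma ev_sum {ι : Type*} (s : Finset ι) (P : Matrix A A ℂ)
    (F : ι → Matrix (Fin (k + 1) → B) (Fin (k + 1) → B) ℂ) :
    evX X P (∑ i ∈ s, F i) = ∑ i ∈ s, evX X P (F i) := by
  simp [evX, kron_sum_right, Matrix.sum_mul, trace_sum]

lemma ev_le (hX : X.PosSemidef) {P : Matrix A A ℂ}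
    {F F' : Matrix (Fin (k + 1) → B) (Fin (k + 1) → B) ℂ}
    (hP : P.PosSemidef) (hF : (F' - F).PosSemidef) : evX X P F ≤ evX X P F' := by
  have h0 : 0 ≤ evX X P (F' - F) := psd_trace_mul_nonneg (hP.kronecker hF) hX
  linarith [ev_sub (X := X) P F' F]

lemma ev_perm (hperm : ∀ (π : Equiv.Perm (Fin (k + 1))) a f a' f',
      X (a, fun l => f (π l)) (a', fun l => f' (π l)) = X (a, f) (a', f'))
    (P : Matrix A A ℂ) (π : Equiv.Perm (Fin (k + 1))) (F : Fin (k + 1) → Matrix B B ℂ) :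
    evX X P (piK fun l => F (π l)) = evX X P (piK F) := by
  let e : (Fin (k + 1) → B) ≃ (Fin (k + 1) → B) := Equiv.arrowCongr π.symm (Equiv.refl B)
  simp only [evX, trace, diag_apply, mul_apply, Fintype.sum_prod_type, kroneckerMap_apply]
  congr 1
  refine Finset.sum_congr rfl fun a _ => ?_
  rw [← e.sum_comp]
  refine Finset.sum_congr rfl fun f _ => Finset.sum_congr rfl fun a' _ => ?_
  rw [← e.sum_comp]
  refine Finset.sum_congr rfl fun g _ => ?_
  have he : ∀ f : Fin (k + 1) → B, e f = fun l => f (π l) := fun f => by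
    funext l; simp [e, Equiv.arrowCongr]
  rw [he f, he g, hperm π a' g a f]
  congr 2
  simp only [piK, of_apply]
  exact Equiv.prod_comp π fun l => F l (f l) (g l)

lemma ev_marg [DecidableEq B] (V : Matrix (A × B) W ℂ)
    (hm : ∀ a b a' b', ∑ c : Fin k → B, X (a, Fin.cons b c) (a', Fin.cons b' c) =
      (V * Vᴴ) (a, b) (a', b'))
    (P : Matrix A A ℂ) (Y : Matrix B B ℂ) :
    evX X P (consK Y 1) = (Vᴴ * (P ⊗ₖ Y) * V).trace.re := by
  have e : (Vᴴ * (P ⊗ₖ Y) * V).trace = ((P ⊗ₖ Y) * (V * Vᴴ)).trace := by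
    rw [trace_mul_cycle, trace_mul_comm]
  simp only [evX]
  rw [e, trace_cons]
  simp only [trace, diag_apply, mul_apply (M := P ⊗ₖ Y), Fintype.sum_prod_type,
    kroneckerMap_apply]
  simp only [one_apply, ite_mul, one_mul, zero_mul, Finset.sum_ite_eq, Finset.mem_univ, if_true,
    hm]

lemma ev_slot [DecidableEq B] (hperm : ∀ (π : Equiv.Perm (Fin (k + 1))) a f a' f',
      X (a, fun l => f (π l)) (a', fun l => f' (π l)) = X (a, f) (a', f'))
    (V : Matrix (A × B) W ℂ)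
    (hm : ∀ a b a' b', ∑ c : Fin k → B, X (a, Fin.cons b c) (a', Fin.cons b' c) =
      (V * Vᴴ) (a, b) (a', b'))
    (P : Matrix A A ℂ) (i : Fin k) (Y : Matrix B B ℂ) :
    evX X P (consK 1 (piK (Function.update (fun _ : Fin k => (1 : Matrix B B ℂ)) i Y))) =
      (Vᴴ * (P ⊗ₖ Y) * V).trace.re := by
  rw [← ev_marg V hm, ← piK_one (I := Fin k), consK_piK, consK_piK]
  rw [← ev_perm hperm P (Equiv.swap (0 : Fin (k + 1)) i.succ) (Fin.cons Y fun _ => 1)]
  congr 2
  funext l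
  refine Fin.cases ?_ ?_ l
  · simp
  · intro j
    by_cases hji : j = i
    · subst hji; simp
    · rw [Equiv.swap_apply_of_ne_of_ne (Fin.succ_ne_zero j) (by simpa using hji)]
      simp [Function.update_of_ne hji]

lemma none_le [DecidableEq A] [DecidableEq B] (hX : X.PosSemidef)
    (hperm : ∀ (π : Equiv.Perm (Fin (k + 1))) a f a' f',
      X (a, fun l => f (π l)) (a', fun l => f' (π l)) = X (a, f) (a', f'))
    (V : Matrix (A × B) W ℂ)
    (hm : ∀ a b a' b', ∑ c : Fin k → B, X (a, Fin.cons b c) (a', Fin.cons b' c) =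
      (V * Vᴴ) (a, b) (a', b'))
    {B0 : Matrix B B ℂ} (hB0p : B0.PosSemidef) (hC : (1 - B0).PosSemidef)
    (P : Matrix A A ℂ) (hP : P.PosSemidef) :
    evX X P (consK B0 (piK fun _ : Fin k => 1 - B0)) ≤
      (Vᴴ * (P ⊗ₖ (1 : Matrix B B ℂ)) * V).trace.re / (k + 1) := by
  rw [le_div_iff₀ (by positivity), ← ev_marg V hm P 1, consK_one, consK_piK]
  have hall : ∀ i : Fin (k + 1),
      evX X P (piK (Function.update (fun _ => 1 - B0) i B0)) =
        evX X P (piK (Fin.cons B0 fun _ => 1 - B0)) := by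
    intro i
    rw [← ev_perm hperm P (Equiv.swap 0 i) (Fin.cons B0 fun _ => 1 - B0)]
    congr 2
    funext l
    by_cases hl : l = i
    · subst hl; simp
    · rw [Function.update_of_ne hl]
      by_cases hl0 : l = 0
      · subst hl0
        rw [Equiv.swap_apply_left]
        obtain ⟨i', rfl⟩ := Fin.exists_succ_eq.mpr (Ne.symm hl)
        simp
      · rw [Equiv.swap_apply_of_ne_of_ne hl0 hl]
        obtain ⟨l', rfl⟩ := Fin.exists_succ_eq.mpr hl0
        simp
  have h1 := ev_le hX hP (one_hot_le (I := Fin (k + 1)) hB0p hC (add_sub_cancel _ _))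
  rw [ev_sum, Finset.sum_congr rfl fun i _ => hall i, Finset.sum_const, Finset.card_univ,
    Fintype.card_fin, nsmul_eq_mul] at h1
  push_cast at h1
  linarith

end

/-- For one transcript: Alice's and Eve's agreement, against the two ways of failing. -/
lemma slot_bound {A B W Key : Type*} [Fintype A] [DecidableEq A] [Fintype B] [DecidableEq B]
    [Fintype W] [DecidableEq W] [Fintype Key] [DecidableEq Key] {k : ℕ}
    (V : Matrix (A × B) W ℂ) (hExt : ExtK k (V * Vᴴ))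
    (M : Key → Matrix A A ℂ) (N' : Key → Matrix B B ℂ) (hM : ∀ a, (M a).PosSemidef)
    (hN : ∀ y, (N' y).PosSemidef) (hC : (1 - ∑ y, N' y).PosSemidef) :
    ∃ Q : Key → Matrix W W ℂ, (∀ y, (Q y).PosSemidef) ∧ (1 - ∑ y, Q y).PosSemidef ∧
      ∑ a, ∑ b, (Vᴴ * (M a ⊗ₖ N' b) * V).trace.re -
          (∑ a, (Vᴴ * (M a ⊗ₖ (1 : Matrix B B ℂ)) * V).trace.re) / (k + 1) -
          k * (∑ a, ∑ b, if a = b then 0 else (Vᴴ * (M a ⊗ₖ N' b) * V).trace.re) ≤
        ∑ a, ∑ b, (Q a * (Vᴴ * (M a ⊗ₖ N' b) * V)).trace.re := by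
  classical
  obtain ⟨X, hX, hperm, hm⟩ := hExt
  obtain ⟨B0, hB0⟩ : ∃ B0, B0 = ∑ y, N' y := ⟨_, rfl⟩
  have hB0p : B0.PosSemidef := hB0 ▸ posSemidef_sum _ fun y _ => hN y
  obtain ⟨Jg, hJ, hJsum, hJle⟩ := exists_guess (I := Fin k) N' hN hC
  rw [← hB0] at hC hJsum
  have hC0 : (piK fun _ : Fin k => 1 - B0).PosSemidef := piK_psd fun _ => hC
  have hJ1 : (1 - ∑ y, Jg y).PosSemidef := by
    rw [hJsum, sub_sub_cancel]; exact hC0
  obtain ⟨Q, hQ, hQ1, hQe⟩ := eve_slots V X hX hm Jg hJ hJ1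
  refine ⟨Q, hQ, hQ1, ?_⟩
  have hB1 : (1 - B0).PosSemidef := hC
  -- the guess agrees unless no slot matches or some slot disagrees
  have main : ∀ a, ∑ b, (Vᴴ * (M a ⊗ₖ N' b) * V).trace.re -
      (Vᴴ * (M a ⊗ₖ (1 : Matrix B B ℂ)) * V).trace.re / (k + 1) -
      k * (∑ b, if a = b then 0 else (Vᴴ * (M a ⊗ₖ N' b) * V).trace.re) ≤
      ∑ b, (Q a * (Vᴴ * (M a ⊗ₖ N' b) * V)).trace.re := by
    intro a
    have eR : ∑ b, (Q a * (Vᴴ * (M a ⊗ₖ N' b) * V)).trace.re = evX X (M a) (consK B0 (Jg a)) := by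
      simp only [evX]
      rw [← hQe, ← Complex.re_sum, ← trace_sum, hB0]
      simp only [kron_sum_right, Matrix.mul_sum, Matrix.sum_mul]
    have eT : ∑ b, (Vᴴ * (M a ⊗ₖ N' b) * V).trace.re = evX X (M a) (consK B0 1) := by
      rw [ev_marg V hm, ← Complex.re_sum, ← trace_sum, hB0]
      simp only [kron_sum_right, Matrix.mul_sum, Matrix.sum_mul]
    have e1 : evX X (M a) (consK B0 1) = evX X (M a) (consK B0 (Jg a)) +
        (∑ b ∈ Finset.univ.erase a, evX X (M a) (consK B0 (Jg b))) +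
        evX X (M a) (consK B0 (piK fun _ : Fin k => 1 - B0)) := by
      rw [Finset.add_sum_erase _ (fun b => evX X (M a) (consK B0 (Jg b))) (Finset.mem_univ a)]
      have : consK B0 (1 : Matrix (Fin k → B) (Fin k → B) ℂ) =
          consK B0 (∑ b, Jg b) + consK B0 (piK fun _ : Fin k => 1 - B0) := by
        rw [hJsum, consK_sub_right, sub_add_cancel]
      rw [this, consK_sum_right]
      rw [ev_add]
      rw [ev_sum]
    have wrong : ∀ b, evX X (M a) (consK B0 (Jg b)) ≤ k * (Vᴴ * (M a ⊗ₖ N' b) * V).trace.re := by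
      intro b
      refine le_trans (ev_le hX (hM a) (F' := consK 1 (Jg b)) ?_) ?_
      · rw [← consK_sub_left]; exact consK_psd hB1 (hJ b)
      refine le_trans (ev_le hX (hM a)
        (F' := consK 1 (∑ i : Fin k, piK (Function.update (fun _ => 1) i (N' b)))) ?_) ?_
      · rw [← consK_sub_right]; exact consK_psd PosSemidef.one (hJle b)
      rw [consK_sum_right, ev_sum, Finset.sum_congr rfl fun i _ => ev_slot hperm V hm (M a) i (N' b)]
      simp
    have w2 : ∑ b ∈ Finset.univ.erase a, evX X (M a) (consK B0 (Jg b)) ≤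
        k * (∑ b, if a = b then 0 else (Vᴴ * (M a ⊗ₖ N' b) * V).trace.re) := by
      rw [← Finset.sum_erase Finset.univ (a := a)
        (f := fun b => if a = b then 0 else (Vᴴ * (M a ⊗ₖ N' b) * V).trace.re) (if_pos rfl),
        Finset.mul_sum]
      exact Finset.sum_le_sum fun b hb => by
        rw [if_neg (Finset.ne_of_mem_erase hb).symm]; exact wrong b
    have := none_le hX hperm V hm hB0p hC (M a) (hM a)
    rw [eR, eT, e1]
    linarith
  have := Finset.sum_le_sum (s := Finset.univ) fun a (_ : a ∈ Finset.univ) => main a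
  simp only [Finset.sum_sub_distrib, ← Finset.mul_sum, ← Finset.sum_div] at this
  exact this

theorem error_bound_bits {A B X T S W Key : Type*} [Fintype A] [DecidableEq A] [Fintype B]
    [DecidableEq B] [Fintype X] [DecidableEq X] [Fintype T] [DecidableEq T] [Fintype S]
    [DecidableEq S] [Fintype W] [DecidableEq W] [Fintype Key] [DecidableEq Key] {k R : ℕ}
    (V : Matrix X W ℂ) (K : T → Matrix (A × B) X ℂ)
    (M : T → Fin R × S → Key → Matrix A A ℂ) (N : T → Fin R × S → Key → Matrix B B ℂ)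
    (σ : Matrix ((T × (Fin R × S)) × W) ((T × (Fin R × S)) × W) ℂ)
    (hExt : ∀ t, ExtK k ((K t * V) * (K t * V)ᴴ)) (hV : (Vᴴ * V).trace = 1)
    (hK : ∑ t, (K t)ᴴ * K t = 1) (hM : ∀ t j x, (M t j x).PosSemidef)
    (hM1 : ∀ t r, ∑ s, ∑ x, M t (r, s) x = 1) (hN : ∀ t j x, (N t j x).PosSemidef)
    (hN1 : ∀ t s, ∑ r, ∑ x, N t (r, s) x = 1)
    (hMN : ∀ t, ∑ j, ∑ x, ∑ y, M t j x ⊗ₖ N t j y = 1)
    (hσ : σ.PosSemidef) (hσ1 : σ.trace = 1) (cr : ℝ) (hcr0 : 0 ≤ cr) (c : ℂ) (hc' : c = (cr : ℂ))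
    (Id : Matrix ((Key × Key) × ((T × (Fin R × S)) × W)) _ ℂ) (hid : Id = perfect c σ) :
    (1 - R / (k + 1) - cr) / (k + 1) ≤ traceNorm (finalState V K M N - Id) := by
  let ω : T × (Fin R × S) → Key → Key → Matrix W W ℂ := fun j a b =>
    (K j.1 * V)ᴴ * (M j.1 j.2 a ⊗ₖ N j.1 j.2 b) * (K j.1 * V)
  have hω : ∀ j a b, (ω j a b).PosSemidef := fun j a b =>
    ((hM _ _ _).kronecker (hN _ _ _)).conjTranspose_mul_mul_same _
  have hC : ∀ t j, (1 - ∑ y, N t j y).PosSemidef := by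
    intro t j
    obtain ⟨r, s⟩ := j
    rw [← hN1 t s, ← Finset.add_sum_erase _ _ (Finset.mem_univ r), add_sub_cancel_left]
    exact posSemidef_sum _ fun r' _ => posSemidef_sum _ fun y _ => hN t _ y
  choose Q hQ hQ1 hQb using fun j : T × (Fin R × S) =>
    slot_bound (K j.1 * V) (hExt j.1) (M j.1 j.2) (N j.1 j.2) (hM j.1 j.2)
      (hN j.1 j.2) (hC j.1 j.2)
  have hjoint : finalState V K M N = joint ω := rfl
  rw [hjoint, hid]
  have key1 := test_guess' ω hω Q hQ hQ1 σ hσ hσ1 cr hcr0 c hc'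
  have key2 := test_disagree ω hω σ hσ cr hcr0 c hc'
  have hsum : ∀ F : T → Matrix (A × B) (A × B) ℂ,
      ∑ t, ((K t * V)ᴴ * F t * (K t * V)).trace =
        (Vᴴ * (∑ t, (K t)ᴴ * F t * K t) * V).trace := by
    intro F
    simp only [Matrix.mul_sum, Matrix.sum_mul, trace_sum, conjTranspose_mul, Matrix.mul_assoc]
  have total : ∑ j, ∑ a, ∑ b, (ω j a b).trace.re = 1 := by
    simp only [ω, ← Complex.re_sum, ← trace_sum, ← Matrix.sum_mul, ← Matrix.mul_sum]
    rw [Fintype.sum_prod_type]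
    simp only [← Matrix.sum_mul, ← Matrix.mul_sum, hMN]
    rw [trace_sum, hsum,
      show ∑ t, (K t)ᴴ * (1 : Matrix (A × B) (A × B) ℂ) * K t = 1 by simpa using hK,
      Matrix.mul_one, hV,
      Complex.one_re]
  have guess : ∑ j : T × (Fin R × S),
      ∑ a, ((K j.1 * V)ᴴ * (M j.1 j.2 a ⊗ₖ (1 : Matrix B B ℂ)) * (K j.1 * V)).trace.re = R := by
    have hM2 : ∀ t, ∑ j, ∑ a, M t j a ⊗ₖ (1 : Matrix B B ℂ) = (R : ℂ) • 1 := by
      intro t
      rw [Fintype.sum_prod_type]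
      simp only [← kron_sum_left, hM1, one_kronecker_one, Finset.sum_const, Finset.card_univ,
        Fintype.card_fin]
      rw [← Nat.cast_smul_eq_nsmul ℂ]
    simp only [← Complex.re_sum, ← trace_sum, ← Matrix.sum_mul, ← Matrix.mul_sum]
    rw [Fintype.sum_prod_type]
    simp only [← Matrix.sum_mul, ← Matrix.mul_sum, hM2]
    rw [trace_sum, hsum,
      show ∑ t, (K t)ᴴ * ((R : ℂ) • (1 : Matrix (A × B) (A × B) ℂ)) * K t = (R : ℂ) • 1 by
        rw [← hK, Finset.smul_sum]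
        exact Finset.sum_congr rfl fun t _ => by simp,
      Matrix.mul_smul, Matrix.smul_mul, Matrix.mul_one, trace_smul, hV]
    simp
  have := Finset.sum_le_sum (s := Finset.univ)
    fun j (_ : j ∈ (Finset.univ : Finset (T × (Fin R × S)))) => hQb j
  simp only [Finset.sum_sub_distrib, ← Finset.mul_sum, ← Finset.sum_div] at this
  change (∑ j, ∑ a, ∑ b, (ω j a b).trace.re) - _ - (k : ℝ) *
    (∑ j, ∑ a, ∑ b, if a = b then 0 else (ω j a b).trace.re) ≤
    ∑ j, ∑ a, ∑ b, (Q j a * ω j a b).trace.re at this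
  rw [total, guess] at this
  rw [div_le_iff₀ (by positivity)]
  nlinarith [key1, key2, this, Nat.cast_nonneg (α := ℝ) k]

theorem keyFreeBits_of_window {d : ℕ} (n R : ℕ)
    (ρ : Matrix (Fin d × Fin d) (Fin d × Fin d) ℂ) (lam mu : ℝ) (hl : 0 ≤ lam)
    (hlo : (ρ - (lam : ℂ) • 1).PosSemidef) (hhi : ((mu : ℂ) • 1 - ρ).PosSemidef)
    (hn : (4 * R : ℕ) * mu ^ n ≤ ((4 * R : ℕ) + 1) * lam ^ n) (htr : ρ.trace = 1)
    (hR : 1 ≤ R) :
    KeyFreeBits n R (1 / (4 * (4 * R + 1))) ρ := by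
  intro m e T S a b L V G h M N σ hL hV hcomp hM hM1 hN hN1 hMN hσ hσ1
  classical
  have hV1 : (Vᴴ * V).trace = 1 := by
    rw [trace_mul_comm, hV, piP_trace]
    simp [piP_trace, htr]
  have hblk : WinK (4 * R) (piP fun _ : Fin n => ρ) :=
    winK_piP _ ρ lam mu hl hlo hhi (by simpa using hn)
  have hcr : ((2 : ℝ) ^ L)⁻¹ ≤ 1 / 2 := by
    rw [one_div]
    exact inv_anti₀ two_pos (le_self_pow₀ one_le_two (by omega))
  refine le_trans ?_ (error_bound_bits (k := 4 * R) V _ M N σ (fun t => ?_) hV1 ?_ hM hM1 hN hN1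
    hMN hσ hσ1 ((2 : ℝ) ^ L)⁻¹ (by positivity) ((2 : ℂ) ^ L)⁻¹ (by simp) (idealState L σ) rfl)
  · push_cast
    have hR1 : (1 : ℝ) ≤ R := by exact_mod_cast hR
    have hq : (R : ℝ) / (4 * R + 1) ≤ 1 / 4 := by
      rw [div_le_iff₀ (by positivity)]; linarith
    rw [div_le_div_iff₀ (by positivity) (by positivity)]
    nlinarith
  · have e1 : (G t ⊗ₖ piK (h t)) =
        (G t ⊗ₖ (1 : Matrix (Fin m → Fin b) (Fin m → Fin b) ℂ)) *
          ((1 : Matrix (Fin m → Fin n → Fin d) (Fin m → Fin n → Fin d) ℂ) ⊗ₖ piK (h t)) := by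
      rw [← mul_kronecker_mul, Matrix.mul_one, Matrix.one_mul]
    have e2 : (G t ⊗ₖ piK (h t)) * V * ((G t ⊗ₖ piK (h t)) * V)ᴴ =
        (G t ⊗ₖ (1 : Matrix (Fin m → Fin b) (Fin m → Fin b) ℂ)) *
          piP (fun i : Fin m => ((1 : Matrix (Fin n → Fin d) (Fin n → Fin d) ℂ) ⊗ₖ h t i) *
            piP (fun _ : Fin n => ρ) *
            ((1 : Matrix (Fin n → Fin d) (Fin n → Fin d) ℂ) ⊗ₖ h t i)ᴴ) *
          (G t ⊗ₖ (1 : Matrix (Fin m → Fin b) (Fin m → Fin b) ℂ))ᴴ := by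
      rw [← piP_filter, ← hV, e1]
      simp only [conjTranspose_mul, Matrix.mul_assoc]
    rw [e2]
    exact extK_left (extK_piP fun i => winK_ext (by omega) (winK_filter hblk (h t i))) (G t)
  · simp only [conjTranspose_kronecker, ← mul_kronecker_mul]
    exact hcomp

lemma pow_windowK {n k : ℕ} {x : ℝ} (hx0 : 0 ≤ x) (hx1 : x ≤ 1)
    (hn : 2 * n * x * (k + 1) ≤ 1) : (k : ℝ) * (1 + x) ^ n ≤ (k + 1) * (1 - x) ^ n := by
  have h1 : 1 - 2 * n * x ≤ (1 - x) ^ n * (1 - x) ^ n := by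
    have := one_add_mul_le_pow (a := -x) (by linarith) (n + n)
    rw [← sub_eq_add_neg, pow_add] at this
    push_cast at this
    linarith
  have h2 : (1 + x) ^ n * (1 - x) ^ n ≤ 1 := by
    rw [← mul_pow]
    exact pow_le_one₀ (by nlinarith) (by nlinarith)
  have h3 : 0 ≤ (1 + x) ^ n := by positivity
  have h4 : 0 ≤ (1 - x) ^ n := pow_nonneg (by linarith) n
  have hk : (0 : ℝ) ≤ k := Nat.cast_nonneg k
  have h5 : (k : ℝ) ≤ (k + 1) * ((1 - x) ^ n * (1 - x) ^ n) := by nlinarith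
  nlinarith [mul_le_mul_of_nonneg_left h2 (mul_nonneg (add_nonneg hk zero_le_one) h4),
    mul_le_mul_of_nonneg_right h5 h3]

end Vale.Agent.P372.Bits
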